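import Vale.Agent.P307.Defs

/-! P307 Dec (TASK). Decomposition into connected components.
Plan. `X = Quotient (Relation.EqvGen.setoid (Adj L))`, `π = Quotient.mk`. A class has at most `Cardinal.mk Λ` elements (`Adj` is symmetric; the class of `a` is the union over `n : ℕ` of the sets `B n`, `B 0 = {a}`, `B (n+1) = B n ∪ ⋃ b ∈ B n, {c | Adj b c}`, since this union is closed under `Adj`). So there is `j : M → Λ` that is injective on each class. `k₀ c = (j '' class, fun n R => {v | ∃ x, (∀ i, π (x i) = c) ∧ v = j ∘ x ∧ RelMap R x})`; `a ↦ (π a, j a)` is an isomorphism `M ≃ F k₀` (a tuple of a relation has positive length and lies in one class). `str (k₀ c)` is connected (induction on `EqvGen`, the path stays in the class). `con_iso`, `F_iso` with `k c = (Quotient.mk (isoS L Λ) (k₀ c)).out` (`Quotient.mk_out`, `Quotient.out_eq`). Helper names start with `dec_`. -/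

open Cardinal Set

universe u

noncomputable section

namespace Vale.Agent.P307

variable {L : FirstOrder.Language.{u, u}} [L.IsRelational] {Λ X X' : Type u}

omit [L.IsRelational] in
theorem dec_adj_symm {M : Type u} [L.Structure M] {a b : M} (h : Adj L a b) : Adj L b a := by
  obtain ⟨n, R, x, hR, ha, hb⟩ := h
  exact ⟨n, R, x, hR, hb, ha⟩

omit [L.IsRelational] in
theorem dec_eqv_map {M N : Type u} [L.Structure M] [L.Structure N] (e : L.Equiv M N) {a b : M}
    (h : Relation.EqvGen (Adj L) a b) : Relation.EqvGen (Adj L) (e a) (e b) := by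
  induction h with
  | rel a b hab =>
    obtain ⟨n, R, x, hR, ⟨i, hi⟩, ⟨j, hj⟩⟩ := hab
    exact .rel _ _ ⟨n, R, e ∘ x, (e.map_rel R x).2 hR, ⟨i, by simp [hi]⟩, ⟨j, by simp [hj]⟩⟩
  | refl a => exact .refl _
  | symm a b _ ih => exact .symm _ _ ih
  | trans a b c _ _ ih ih' => exact .trans _ _ _ ih ih'

theorem con_iso {M N : Type u} [L.Structure M] [L.Structure N] (e : L.Equiv M N) (h : Con L M) :
    Con L N := by
  refine ⟨h.1.map e, fun a b => ?_⟩
  have := dec_eqv_map e (h.2 (e.symm a) (e.symm b))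
  rwa [e.apply_symm_apply, e.apply_symm_apply] at this

/-- The inclusion of a component. -/
def dec_in (k : X → Code L Λ) (x : X) (z : str (k x)) : F k := ⟨(x, z.1.2), z.2⟩

/-- The map of disjoint unions induced by maps of the components. -/
def dec_map {k k' : X → Code L Λ} (e : ∀ x, str (k x) → str (k' x)) (p : F k) : F k' :=
  dec_in k' p.1.1 (e p.1.1 ⟨(PUnit.unit, p.1.2), p.2⟩)

theorem dec_map_map {k k' : X → Code L Λ} (e : ∀ x, L.Equiv (str (k x)) (str (k' x))) (p : F k) :
    dec_map (fun x => (e x).symm) (dec_map (fun x => e x) p) = p :=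
  congrArg (dec_in k p.1.1) ((e p.1.1).symm_apply_apply ⟨(PUnit.unit, p.1.2), p.2⟩)

theorem dec_rel_iff {k : X → Code L Λ} {n : ℕ} (R : L.Relations n) (v : Fin n → F k) :
    FirstOrder.Language.Structure.RelMap R v ↔ ∃ (x : X) (w : Fin n → str (k x)),
      v = dec_in k x ∘ w ∧ FirstOrder.Language.Structure.RelMap R w := by
  constructor
  · rintro ⟨x, hx, hR⟩
    refine ⟨x, fun i => ⟨(PUnit.unit, (v i).1.2), ?_⟩, ?_, PUnit.unit, fun _ => rfl, hR⟩
    · have := (v i).2
      rw [hx i] at this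
      exact this
    · funext i
      exact Subtype.ext (Prod.ext (hx i) rfl)
  · rintro ⟨x, w, rfl, _, _, hR⟩
    exact ⟨x, fun _ => rfl, hR⟩

theorem dec_rel_map {k k' : X → Code L Λ} (e : ∀ x, L.Equiv (str (k x)) (str (k' x))) {n : ℕ}
    (R : L.Relations n) (v : Fin n → F k) (h : FirstOrder.Language.Structure.RelMap R v) :
    FirstOrder.Language.Structure.RelMap R (dec_map (fun x => e x) ∘ v) := by
  obtain ⟨x, w, rfl, hR⟩ := (dec_rel_iff R v).1 h
  exact (dec_rel_iff R _).2 ⟨x, e x ∘ w, rfl, ((e x).map_rel R w).2 hR⟩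

theorem F_iso {k k' : X → Code L Λ} (h : ∀ x, Nonempty (L.Equiv (str (k x)) (str (k' x)))) :
    Nonempty (L.Equiv (F k) (F k')) := by
  have e : ∀ x, L.Equiv (str (k x)) (str (k' x)) := fun x => (h x).some
  refine ⟨{ toFun := dec_map fun x => e x
            invFun := dec_map fun x => (e x).symm
            left_inv := dec_map_map e
            right_inv := dec_map_map fun x => (e x).symm
            map_fun' := fun f => isEmptyElim f
            map_rel' := fun R v => ⟨fun hv => ?_, dec_rel_map e R v⟩ }⟩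
  have h1 := dec_rel_map (fun x => (e x).symm) R _ hv
  have h2 : dec_map (fun x => (e x).symm) ∘ (dec_map (fun x => e x) ∘ v) = v :=
    funext fun i => dec_map_map e (v i)
  exact h2 ▸ h1

/-- Balls in the adjacency graph. -/
def dec_B (L : FirstOrder.Language.{u, u}) {M : Type u} [L.Structure M] (a : M) : ℕ → Set M
  | 0 => {a}
  | n + 1 => ⋃ b ∈ dec_B L a n, {c | Adj L b c}

omit [L.IsRelational] in
theorem dec_class_le [Infinite Λ] {M : Type u} [L.Structure M]
    (h : ∀ a : M, Cardinal.mk {b : M // Adj L a b} ≤ Cardinal.mk Λ) (a : M) :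
    Cardinal.mk {b : M | Relation.EqvGen (Adj L) a b} ≤ Cardinal.mk Λ := by
  have hΛ : ℵ₀ ≤ Cardinal.mk Λ := aleph0_le_mk Λ
  have hB : ∀ n, Cardinal.mk (dec_B L a n) ≤ Cardinal.mk Λ := by
    intro n
    induction n with
    | zero =>
      rw [dec_B, mk_singleton]
      exact one_le_aleph0.trans hΛ
    | succ n ih =>
      rw [dec_B]
      have h1 : ⨆ x : dec_B L a n, Cardinal.mk {c | Adj L x.1 c} ≤ Cardinal.mk Λ :=
        ciSup_le' fun x => h x.1
      refine (mk_biUnion_le (fun b => {c | Adj L b c}) (dec_B L a n)).trans ?_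
      refine (mul_le_mul' ih h1).trans ?_
      rw [mul_eq_self hΛ]
  have hcl : ∀ b c : M, Adj L b c → b ∈ ⋃ n : ULift.{u} ℕ, dec_B L a n.down →
      c ∈ ⋃ n : ULift.{u} ℕ, dec_B L a n.down := by
    intro b c hbc hb
    obtain ⟨n, hn⟩ := mem_iUnion.1 hb
    refine mem_iUnion.2 ⟨⟨n.down + 1⟩, ?_⟩
    rw [dec_B]
    exact mem_biUnion hn hbc
  have hiff : ∀ b c : M, Relation.EqvGen (Adj L) b c →
      (b ∈ ⋃ n : ULift.{u} ℕ, dec_B L a n.down ↔ c ∈ ⋃ n : ULift.{u} ℕ, dec_B L a n.down) := by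
    intro b c hbc
    induction hbc with
    | rel b c hbc => exact ⟨hcl b c hbc, hcl c b (dec_adj_symm hbc)⟩
    | refl b => exact Iff.rfl
    | symm b c _ ih => exact ih.symm
    | trans b c d _ _ ih ih' => exact ih.trans ih'
  have hsub : {b : M | Relation.EqvGen (Adj L) a b} ⊆ ⋃ n : ULift.{u} ℕ, dec_B L a n.down :=
    fun b hb => (hiff a b hb).1 (mem_iUnion.2 ⟨⟨0⟩, by rw [dec_B]; exact mem_singleton a⟩)
  refine (mk_le_mk_of_subset hsub).trans ((mk_iUnion_le _).trans ?_)
  have hN : Cardinal.mk (ULift.{u} ℕ) ≤ Cardinal.mk Λ := mk_le_aleph0.trans hΛ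
  have h1 : ⨆ n : ULift.{u} ℕ, Cardinal.mk (dec_B L a n.down) ≤ Cardinal.mk Λ :=
    ciSup_le' fun n => hB n.down
  refine (mul_le_mul' hN h1).trans ?_
  rw [mul_eq_self hΛ]

/-- The code of the fibre of `π` over `c`, transported by `j`. -/
def dec_code {M : Type u} [L.Structure M] (π : M → X) (j : M → Λ) (c : X) : Code L Λ :=
  (j '' {a | π a = c}, fun n R => {v | ∃ x : Fin n → M,
    (∀ i, π (x i) = c) ∧ v = j ∘ x ∧ FirstOrder.Language.Structure.RelMap R x})

theorem dec_iso [IsEmpty (L.Relations 0)] {M : Type u} [L.Structure M] (π : M → X) (j : M → Λ)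
    (hπ : ∀ a b, Adj L a b → π a = π b) (hj : ∀ a b, π a = π b → j a = j b → a = b) :
    Nonempty (L.Equiv M (F (dec_code (L := L) π j))) := by
  let φ : M → F (dec_code (L := L) π j) := fun a => ⟨(π a, j a), ⟨a, rfl, rfl⟩⟩
  have hφ : Function.Bijective φ := by
    constructor
    · intro a b hab
      have h1 : (π a, j a) = (π b, j b) := congrArg Subtype.val hab
      exact hj a b (congrArg Prod.fst h1) (congrArg Prod.snd h1)
    · rintro ⟨⟨c, l⟩, a, ha, hl⟩
      exact ⟨a, Subtype.ext (Prod.ext ha hl)⟩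
  refine ⟨{ toEquiv := Equiv.ofBijective φ hφ
            map_fun' := fun f => isEmptyElim f
            map_rel' := fun {n} R x => ⟨?_, fun hR => ?_⟩ }⟩
  · rintro ⟨c, hc, y, hy, hxy, hR⟩
    have : x = y := funext fun i => hj _ _ ((hc i).trans (hy i).symm) (congrFun hxy i)
    rwa [this]
  · cases n with
    | zero => exact isEmptyElim R
    | succ m =>
      have hx : ∀ i, π (x i) = π (x 0) := fun i => hπ _ _ ⟨_, R, x, hR, ⟨i, rfl⟩, ⟨0, rfl⟩⟩
      exact ⟨π (x 0), hx, x, hx, rfl, hR⟩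

theorem dec_con {M : Type u} [L.Structure M] (π : M → X) (j : M → Λ)
    (hπ : ∀ a b, π a = π b ↔ Relation.EqvGen (Adj L) a b) (c : X) (hc : ∃ a, π a = c) :
    Con L (str (dec_code (L := L) π j c)) := by
  let ψ : ∀ a, π a = c → str (dec_code (L := L) π j c) :=
    fun a ha => ⟨(PUnit.unit, j a), ⟨a, ha, rfl⟩⟩
  have key : ∀ a b, Relation.EqvGen (Adj L) a b → ∀ (ha : π a = c) (hb : π b = c),
      Relation.EqvGen (Adj L) (ψ a ha) (ψ b hb) := by
    intro a b hab
    induction hab with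
    | rel a b hab =>
      intro ha hb
      obtain ⟨n, R, x, hR, ⟨i, rfl⟩, ⟨i', rfl⟩⟩ := hab
      have hx : ∀ l, π (x l) = c := fun l =>
        ((hπ _ _).2 (.rel _ _ ⟨n, R, x, hR, ⟨l, rfl⟩, ⟨i, rfl⟩⟩)).trans ha
      exact .rel _ _ ⟨n, R, fun l => ψ (x l) (hx l), ⟨PUnit.unit, fun _ => rfl, x, hx, rfl, hR⟩,
        ⟨i, rfl⟩, ⟨i', rfl⟩⟩
    | refl a => exact fun _ _ => .refl _
    | symm a b _ ih => exact fun ha hb => .symm _ _ (ih hb ha)
    | trans a b d hab _ ih ih' =>
      intro ha hd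
      have hb : π b = c := ((hπ _ _).2 hab).symm.trans ha
      exact .trans _ _ _ (ih ha hb) (ih' hb hd)
  obtain ⟨a₀, ha₀⟩ := hc
  refine ⟨⟨ψ a₀ ha₀⟩, ?_⟩
  have hs : ∀ z : str (dec_code (L := L) π j c), ∃ a ha, z = ψ a ha := by
    intro z
    obtain ⟨a, ha, hz⟩ := z.2
    exact ⟨a, ha, Subtype.ext (Prod.ext rfl hz.symm)⟩
  intro z w
  obtain ⟨a, ha, rfl⟩ := hs z
  obtain ⟨b, hb, rfl⟩ := hs w
  exact key a b ((hπ a b).1 (ha.trans hb.symm)) ha hb

theorem dec [IsEmpty (L.Relations 0)] [Infinite Λ] (M : Type u) [L.Structure M]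
    (h : ∀ a : M, Cardinal.mk {b : M // Adj L a b} ≤ Cardinal.mk Λ) :
    ∃ (X : Type u) (k : X → Col L Λ), Nonempty (L.Equiv M (F fun x => (k x).1)) := by
  let X : Type u := Quotient (Relation.EqvGen.setoid (Adj L (N := M)))
  let π : M → X := Quotient.mk _
  have hπ : ∀ a b, π a = π b ↔ Relation.EqvGen (Adj L) a b := fun a b => Quotient.eq
  have hemb : ∀ c : X, Nonempty ({a // π a = c} ↪ Λ) := by
    intro c
    obtain ⟨a, rfl⟩ := Quotient.exists_rep c
    rw [← Cardinal.le_def]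
    refine le_trans (mk_le_mk_of_subset (s := {b | π b = π a}) fun b hb => ?_) (dec_class_le h a)
    exact (hπ a b).1 hb.symm
  let j : M → Λ := fun a => (hemb (π a)).some ⟨a, rfl⟩
  have hj' : ∀ a c (ha : π a = c), j a = (hemb c).some ⟨a, ha⟩ := by
    rintro a _ rfl
    rfl
  have hj : ∀ a b, π a = π b → j a = j b → a = b := by
    intro a b hab hjab
    rw [hj' a _ hab, hj' b _ rfl] at hjab
    exact congrArg Subtype.val ((hemb (π b)).some.injective hjab)
  obtain ⟨e⟩ := dec_iso (L := L) π j (fun a b hab => (hπ a b).2 (.rel _ _ hab)) hj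
  have hout : ∀ c : X, Nonempty (L.Equiv (str (dec_code (L := L) π j c))
      (str (Quotient.mk (isoS L Λ) (dec_code (L := L) π j c)).out)) := fun c =>
    (isoS L Λ).symm (Quotient.mk_out (dec_code (L := L) π j c))
  refine ⟨X, fun c => ⟨(Quotient.mk (isoS L Λ) (dec_code (L := L) π j c)).out,
    con_iso (hout c).some (dec_con π j hπ c (Quotient.exists_rep c)), by rw [Quotient.out_eq]⟩, ?_⟩
  obtain ⟨e'⟩ := F_iso hout
  exact ⟨e'.comp e⟩

end Vale.Agent.P307
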