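import Vale.Agent.P307.Stmt

/-! P307: definitions used in the proof (no task here). A structure of bounded degree is a disjoint
union of small connected components; `F k` is the disjoint union of the components with the codes
`k x`. `CA` is the abstract combinatorial shadow of an AEC on coloured sets. -/

open Cardinal Set

universe u

noncomputable section

namespace Vale.Agent.P307

variable {L : FirstOrder.Language.{u, u}} {Λ X X' : Type u}

/-- A structure on a subset of `Λ`. -/
def Code (L : FirstOrder.Language.{u, u}) (Λ : Type u) : Type u :=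
  Set Λ × ∀ n, L.Relations n → Set (Fin n → Λ)

/-- The disjoint union of the structures `k x`. -/
def F (k : X → Code L Λ) : Type u := {p : X × Λ // p.2 ∈ (k p.1).1}

instance [L.IsRelational] (k : X → Code L Λ) : L.Structure (F k) where
  funMap f := isEmptyElim f
  RelMap {n} R v := ∃ x, (∀ i, (v i).1.1 = x) ∧ (fun i => (v i).1.2) ∈ (k x).2 n R

theorem F_rel [L.IsRelational] {k : X → Code L Λ} {n : ℕ} (R : L.Relations n) (v : Fin n → F k) :
    FirstOrder.Language.Structure.RelMap R v ↔
      ∃ x, (∀ i, (v i).1.1 = x) ∧ (fun i => (v i).1.2) ∈ (k x).2 n R := Iff.rfl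

/-- The structure with the code `t`. -/
abbrev str (t : Code L Λ) : Type u := F fun _ : PUnit.{u + 1} => t

/-- Nonempty and connected. -/
def Con (L : FirstOrder.Language.{u, u}) (M : Type u) [L.Structure M] : Prop :=
  Nonempty M ∧ ∀ a b : M, Relation.EqvGen (Adj L) a b

/-- Isomorphism of codes. -/
def isoS (L : FirstOrder.Language.{u, u}) [L.IsRelational] (Λ : Type u) : Setoid (Code L Λ) where
  r s t := Nonempty (L.Equiv (str s) (str t))
  iseqv := ⟨fun _ => ⟨.refl _ _⟩, fun ⟨e⟩ => ⟨e.symm⟩, fun ⟨e⟩ ⟨e'⟩ => ⟨e'.comp e⟩⟩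

/-- Connected codes that are the chosen representatives of their isomorphism classes. -/
def Col (L : FirstOrder.Language.{u, u}) [L.IsRelational] (Λ : Type u) : Type u :=
  {t : Code L Λ // Con L (str t) ∧ (Quotient.mk (isoS L Λ) t).out = t}

/-- The union of the components with index in `A`. -/
def sub [L.IsRelational] (k : X → Code L Λ) (A : Set X) : L.Substructure (F k) where
  carrier := {p | p.1.1 ∈ A}
  fun_mem f := isEmptyElim f

/-- The multiplicity of the colour `t`. -/
def mu {T : Type u} (k : X → T) (t : T) : Cardinal.{u} := Cardinal.mk {x // k x = t}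

/-- An AEC of sets coloured by `T`. -/
structure CA (T : Type u) (χ : Cardinal.{u}) where
  St : ∀ {X : Type u}, (X → T) → Set X → Set X → Prop
  refl : ∀ {X : Type u} {k : X → T} {A B : Set X}, St k A B → St k B B
  map : ∀ {X X' : Type u} (f : X → X'), Function.Injective f → ∀ (k : X' → T) (A B : Set X),
    St (k ∘ f) A B ↔ St k (f '' A) (f '' B)
  trans : ∀ {X : Type u} {k : X → T} {A B C : Set X}, St k A B → St k B C → St k A C
  coh : ∀ {X : Type u} {k : X → T} {A B C : Set X}, A ⊆ B → St k A C → St k B C → St k A B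
  chain : ∀ {X ι : Type u} {k : X → T} [LinearOrder ι] [WellFoundedLT ι] [Nonempty ι]
    (A : ι → Set X), (∀ i j, i ≤ j → St k (A i) (A j)) →
      (∀ i, St k (A i) (⋃ j, A j)) ∧ ∀ B, (∀ i, St k (A i) B) → St k (⋃ j, A j) B
  ls : ∀ {X : Type u} {k : X → T}, St k univ univ → ∀ A : Set X, Cardinal.mk A ≤ χ →
    ∃ B, A ⊆ B ∧ Cardinal.mk B ≤ χ ∧ St k B univ

/-- Categoricity for coloured sets. -/
def CA.Cat {T : Type u} {χ : Cardinal.{u}} (C : CA T χ) (κ : Cardinal.{u}) : Prop :=
  (∃ (X : Type u) (k : X → T), C.St k univ univ ∧ Cardinal.mk X = κ) ∧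
    ∀ (X X' : Type u) (k : X → T) (k' : X' → T), C.St k univ univ → C.St k' univ univ →
      Cardinal.mk X = κ → Cardinal.mk X' = κ → ∀ t, mu k t = mu k' t

theorem eqv_of_mu {T : Type u} {k : X → T} {k' : X' → T} (h : ∀ t, mu k t = mu k' t) :
    ∃ e : X ≃ X', ∀ x, k' (e x) = k x := by
  have h' : ∀ t, Nonempty ({x // k x = t} ≃ {x // k' x = t}) := fun t => Cardinal.eq.1 (h t)
  exact ⟨Equiv.ofFiberEquiv fun t => (h' t).some, fun x => Equiv.ofFiberEquiv_map _ x⟩

end Vale.Agent.P307
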