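import Vale.Agent.P307.Defs

/-! P307 Inv (TASK). The multiplicities are invariants; sizes.
Plan. `inv`: a map `g : M → F k` from a connected `M` that preserves the relations has a constant first coordinate (induction on `EqvGen`). Apply it to `a ↦ e (x, a)` on `str (k x).1` to get `f : X → X'` with `(e p).1.1 = f p.1.1`, the same for `e.symm` gives `f'`; the components are nonempty, so `f`, `f'` are inverse. `e` restricts to an isomorphism `str (k x).1 ≃ str (k' (f x)).1` (for the relations use `e.map_rel` on the tuple in the component `x`), so `Quotient.sound` and the second part of `Col` give `k' (f x) = k x`; `Cardinal.mk_congr`, `Equiv.subtypeEquiv`.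
`card_F`: `mk X ≤ mk (F k) ≤ mk X * mk Λ`. `card_Col`: `mk (Code L Λ) = 2 ^ mk Λ * ∏ ...`; inject the second factor into `Set ((Σ n, L.Relations n) × List Λ)` or `Set (Σ n, L.Relations n × (Fin n → Λ))`, a type of size at most `mk Λ` (`FirstOrder.Language.card_relations_le`-type lemmas, `card_eq_card_functions_add_card_relations`). Helper names start with `inv_`. -/

open Cardinal Set

universe u

noncomputable section

namespace Vale.Agent.P307

variable {L : FirstOrder.Language.{u, u}} [L.IsRelational] {Λ X X' : Type u}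

/-- The inclusion of a component. -/
def inv_emb (k : X → Code L Λ) (x : X) (a : str (k x)) : F k := ⟨(x, a.1.2), a.2⟩

omit [L.IsRelational] in
theorem inv_inj (k : X → Code L Λ) (x : X) : Function.Injective (inv_emb k x) := by
  intro a b h
  have h1 : a.1.2 = b.1.2 := congrArg (fun p : F k => p.1.2) h
  exact Subtype.ext (Prod.ext rfl h1)

omit [L.IsRelational] in
theorem inv_surj (k : X → Code L Λ) {x : X} (p : F k) (h : p.1.1 = x) :
    ∃ a, inv_emb k x a = p := by
  subst h
  exact ⟨⟨(PUnit.unit, p.1.2), p.2⟩, rfl⟩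

theorem inv_rel [IsEmpty (L.Relations 0)] (k : X → Code L Λ) (x : X) {n : ℕ} (R : L.Relations n)
    (v : Fin n → str (k x)) : FirstOrder.Language.Structure.RelMap R (inv_emb k x ∘ v) ↔
      FirstOrder.Language.Structure.RelMap R v := by
  rw [F_rel, F_rel]
  constructor
  · rintro ⟨y, hy, h⟩
    cases n with
    | zero => exact isEmptyElim R
    | succ n =>
      have h1 : x = y := hy 0
      subst h1
      exact ⟨PUnit.unit, fun _ => rfl, h⟩
  · rintro ⟨_, -, h⟩
    exact ⟨x, fun _ => rfl, h⟩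

theorem inv_const {M : Type u} [L.Structure M] (hM : Con L M) {k : X → Code L Λ} (g : M → F k)
    (hg : ∀ (n : ℕ) (R : L.Relations n) (v : Fin n → M), FirstOrder.Language.Structure.RelMap R v →
      FirstOrder.Language.Structure.RelMap R (g ∘ v)) (a b : M) : (g a).1.1 = (g b).1.1 := by
  induction hM.2 a b with
  | rel a b h =>
    obtain ⟨n, R, v, h1, ⟨i, rfl⟩, ⟨j, rfl⟩⟩ := h
    obtain ⟨y, hy, -⟩ := (F_rel R _).1 (hg n R v h1)
    exact (hy i).trans (hy j).symm
  | refl => rfl
  | symm _ _ _ ih => exact ih.symm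
  | trans _ _ _ _ _ ih ih' => exact ih.trans ih'

theorem inv_f [IsEmpty (L.Relations 0)] {k : X → Col L Λ} {k' : X' → Col L Λ}
    (e : L.Equiv (F fun x => (k x).1) (F fun x => (k' x).1)) :
    ∃ f : X → X', ∀ p, (e p).1.1 = f p.1.1 := by
  have h : ∀ x, ∃ y, ∀ a, (e (inv_emb (fun x => (k x).1) x a)).1.1 = y := by
    intro x
    obtain ⟨a₀⟩ := (k x).2.1.1
    refine ⟨_, fun a => inv_const (k x).2.1 (fun a => e (inv_emb (fun x => (k x).1) x a))
      (fun n R v hv => ?_) a a₀⟩
    exact (e.map_rel R _).2 ((inv_rel (fun x => (k x).1) x R v).2 hv)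
  choose f hf using h
  refine ⟨f, fun p => ?_⟩
  obtain ⟨a, ha⟩ := inv_surj _ p rfl
  rw [← hf _ a, ha]

theorem inv_left {k : X → Col L Λ} {k' : X' → Col L Λ}
    (e : L.Equiv (F fun x => (k x).1) (F fun x => (k' x).1)) {f : X → X'} {f' : X' → X}
    (hf : ∀ p, (e p).1.1 = f p.1.1) (hf' : ∀ p, (e.symm p).1.1 = f' p.1.1) (x : X) :
    f' (f x) = x := by
  obtain ⟨a⟩ := (k x).2.1.1
  have h1 := hf' (e (inv_emb (fun x => (k x).1) x a))
  rw [e.symm_apply_apply, hf] at h1
  exact h1.symm

theorem inv_col [IsEmpty (L.Relations 0)] {k : X → Col L Λ} {k' : X' → Col L Λ}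
    (e : L.Equiv (F fun x => (k x).1) (F fun x => (k' x).1)) {f : X → X'} {f' : X' → X}
    (hf : ∀ p, (e p).1.1 = f p.1.1) (hf' : ∀ p, (e.symm p).1.1 = f' p.1.1) (x : X) :
    k' (f x) = k x := by
  have h : ∀ a : str (k x).1, ∃ b : str (k' (f x)).1,
      inv_emb (fun x => (k' x).1) (f x) b = e (inv_emb (fun x => (k x).1) x a) :=
    fun a => inv_surj (fun x => (k' x).1) _ (hf _)
  choose g hg using h
  have hb : Function.Bijective g := by
    refine ⟨fun a b hab => inv_inj (fun x => (k x).1) x (e.injective ?_), fun b => ?_⟩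
    · rw [← hg, ← hg, hab]
    · obtain ⟨a, ha⟩ := inv_surj (fun x => (k x).1) (x := x)
        (e.symm (inv_emb (fun x => (k' x).1) (f x) b)) ((hf' _).trans (inv_left e hf hf' x))
      refine ⟨a, inv_inj (fun x => (k' x).1) (f x) ?_⟩
      rw [hg, ha, e.apply_symm_apply]
  have hiso : (isoS L Λ).r (k x).1 (k' (f x)).1 := by
    refine ⟨⟨Equiv.ofBijective g hb, fun f => isEmptyElim f, fun {n} R v => ?_⟩⟩
    have h1 : inv_emb (fun x => (k' x).1) (f x) ∘ (g ∘ v) =
        e ∘ (inv_emb (fun x => (k x).1) x ∘ v) := funext fun i => hg (v i)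
    refine (inv_rel (fun x => (k' x).1) (f x) R (g ∘ v)).symm.trans ?_
    rw [h1]
    exact (e.map_rel R _).trans (inv_rel (fun x => (k x).1) x R v)
  refine Subtype.ext ?_
  rw [← (k' (f x)).2.2, ← Quotient.sound hiso, (k x).2.2]

theorem inv [IsEmpty (L.Relations 0)] {k : X → Col L Λ} {k' : X' → Col L Λ}
    (e : L.Equiv (F fun x => (k x).1) (F fun x => (k' x).1)) (t : Col L Λ) :
    mu k t = mu k' t := by
  obtain ⟨f, hf⟩ := inv_f e
  obtain ⟨f', hf'⟩ := inv_f e.symm
  let E : X ≃ X' := ⟨f, f', inv_left e hf hf', inv_left e.symm hf' hf⟩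
  refine Cardinal.mk_congr (E.subtypeEquiv fun x => ?_)
  rw [← inv_col e hf hf' x]
  rfl

theorem card_F [Infinite Λ] (k : X → Col L Λ) {κ : Cardinal.{u}} (hκ : Cardinal.mk Λ < κ) :
    Cardinal.mk (F fun x => (k x).1) = κ ↔ Cardinal.mk X = κ := by
  have h1 : Cardinal.mk X ≤ Cardinal.mk (F fun x => (k x).1) := by
    refine Cardinal.mk_le_of_surjective (f := fun p : F fun x => (k x).1 => p.1.1) fun x => ?_
    obtain ⟨a⟩ := (k x).2.1.1
    exact ⟨inv_emb (fun x => (k x).1) x a, rfl⟩
  have h2 : Cardinal.mk (F fun x => (k x).1) ≤ max (Cardinal.mk X) (Cardinal.mk Λ) := by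
    refine (Cardinal.mk_subtype_le _).trans ?_
    rw [Cardinal.mk_prod, lift_id, lift_id]
    exact Cardinal.mul_le_max_of_aleph0_le_right (Cardinal.aleph0_le_mk Λ)
  constructor
  · intro h
    rw [h] at h1 h2
    exact le_antisymm h1 ((le_max_iff.1 h2).resolve_right hκ.not_ge)
  · intro h
    rw [h] at h1 h2
    exact le_antisymm (h2.trans (max_le le_rfl hκ.le)) h1

theorem card_Col [Infinite Λ] (hL : L.card ≤ Cardinal.mk Λ) :
    Cardinal.mk (Col L Λ) ≤ 2 ^ Cardinal.mk Λ := by
  have hΛ := Cardinal.aleph0_le_mk Λ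
  have h1 : Cardinal.mk (Σ n, L.Relations n) ≤ Cardinal.mk Λ := by
    refine le_trans ?_ hL
    rw [FirstOrder.Language.card, FirstOrder.Language.Symbols, Cardinal.mk_sum, lift_id, lift_id]
    exact le_add_self
  have h2 : Cardinal.mk ((Σ n, L.Relations n) × List Λ) ≤ Cardinal.mk Λ := by
    rw [Cardinal.mk_prod, lift_id, lift_id, Cardinal.mk_list_eq_mk]
    exact (Cardinal.mul_le_max_of_aleph0_le_right hΛ).trans (max_le h1 le_rfl)
  have h3 : Cardinal.mk (∀ n, L.Relations n → Set (Fin n → Λ)) ≤ 2 ^ Cardinal.mk Λ := by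
    refine le_trans ?_ (Cardinal.power_le_power_left two_ne_zero h2)
    rw [← Cardinal.mk_set]
    refine Cardinal.mk_le_of_injective (f := fun c : ∀ n, L.Relations n → Set (Fin n → Λ) =>
      {q : (Σ n, L.Relations n) × List Λ | ∃ v ∈ c q.1.1 q.1.2, q.2 = List.ofFn v}) ?_
    have key : ∀ c c' : ∀ n, L.Relations n → Set (Fin n → Λ),
        {q : (Σ n, L.Relations n) × List Λ | ∃ v ∈ c q.1.1 q.1.2, q.2 = List.ofFn v} =
        {q : (Σ n, L.Relations n) × List Λ | ∃ v ∈ c' q.1.1 q.1.2, q.2 = List.ofFn v} →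
        ∀ n R, c n R ⊆ c' n R := by
      intro c c' h n R v hv
      obtain ⟨w, hw, h4⟩ := (Set.ext_iff.1 h (⟨n, R⟩, List.ofFn v)).1 ⟨v, hv, rfl⟩
      rw [List.ofFn_injective h4]
      exact hw
    intro c c' h
    funext n R
    exact Subset.antisymm (key c c' h n R) (key c' c h.symm n R)
  refine (Cardinal.mk_subtype_le _).trans ?_
  rw [Code, Cardinal.mk_prod, lift_id, lift_id, Cardinal.mk_set]
  exact (Cardinal.mul_le_max_of_aleph0_le_left (hΛ.trans (Cardinal.cantor _).le)).trans
    (max_le le_rfl h3)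

end Vale.Agent.P307
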