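import Vale.Agent.P307.Defs

/-! P307 Map (TASK). The coloured shadow of an AEC.
Plan. For an injective `f : X → X'` the map `(x, a) ↦ (f x, a)` is an embedding `F (k ∘ f) ↪ F k` (tuples have positive length) that maps `sub (k ∘ f) A` onto `sub k (f '' A)`; it is onto if `f` is (`iso_of_mu`: `eqv_of_mu`, `subst` the colouring). `St k A B = K.Le (sub (fun x => (k x).1) A) (sub _ B)`. `sub k univ = ⊤`; `⨆ j, sub k (A j) = sub k (⋃ j, A j)` (`le_antisymm`, `iSup_le`, `le_iSup`).
`ls`: by recursion choose `S n` with `K.Le (S n) ⊤`, `mk (S n) ≤ χ`, `sub k A ≤ S 0`, `sub k (fst '' S n) ≤ S (n+1)` (the set `sub k B` has size at most `mk B * mk Λ`); `K.coh` gives a chain indexed by `ULift ℕ`, `K.chain` gives `K.Le (⨆ S) ⊤`, and `⨆ S = sub k B` for `B = ⋃ n, fst '' S n ∪ A` (the supremum of a family of substructures of a relational language is the union: the union is a substructure). Helper names start with `map_`. -/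

open Cardinal Set

universe u

noncomputable section

namespace Vale.Agent.P307

variable {L : FirstOrder.Language.{u, u}} [L.IsRelational] {Λ X X' : Type u}

/-- The embedding induced by an injection of index sets. -/
def map_emb [IsEmpty (L.Relations 0)] (f : X → X') (hf : Function.Injective f)
    (k : X' → Code L Λ) : L.Embedding (F (k ∘ f)) (F k) where
  toFun p := ⟨(f p.1.1, p.1.2), p.2⟩
  inj' := by
    intro p q e
    have e1 := congrArg Subtype.val e
    have e2 := congrArg Prod.snd e1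
    exact Subtype.ext (Prod.ext (hf (congrArg Prod.fst e1)) e2)
  map_fun' f := isEmptyElim f
  map_rel' {n} R v := by
    rw [F_rel, F_rel]
    constructor
    · rintro ⟨x, h1, h2⟩
      cases n with
      | zero => exact isEmptyElim R
      | succ m =>
        have h3 : f (v 0).1.1 = x := h1 0
        subst h3
        exact ⟨(v 0).1.1, fun i => hf (h1 i), h2⟩
    · rintro ⟨x, h1, h2⟩
      exact ⟨f x, fun i => congrArg f (h1 i), h2⟩

theorem map_sub [IsEmpty (L.Relations 0)] (f : X → X') (hf : Function.Injective f)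
    (k : X' → Code L Λ) (A : Set X) :
    (sub (k ∘ f) A).map (map_emb f hf k).toHom = sub k (f '' A) := by
  ext p
  rw [FirstOrder.Language.Substructure.mem_map]
  constructor
  · rintro ⟨q, hq, rfl⟩
    exact ⟨q.1.1, hq, rfl⟩
  · obtain ⟨⟨x', a⟩, hp⟩ := p
    rintro ⟨x, hx, e⟩
    have e' : f x = x' := e
    subst e'
    exact ⟨⟨(x, a), hp⟩, hx, rfl⟩

theorem map_top (k : X → Code L Λ) : sub k univ = ⊤ :=
  top_le_iff.1 fun _ _ => mem_univ _

theorem map_mono (k : X → Code L Λ) {A B : Set X} (h : A ⊆ B) : sub k A ≤ sub k B :=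
  fun _ hp => h hp

theorem map_sup {ι : Type u} (k : X → Code L Λ) (A : ι → Set X) :
    ⨆ j, sub k (A j) = sub k (⋃ j, A j) := by
  refine le_antisymm (iSup_le fun j => map_mono k (subset_iUnion A j)) fun p hp => ?_
  obtain ⟨j, hj⟩ := mem_iUnion.1 (show p.1.1 ∈ ⋃ j, A j from hp)
  exact le_iSup (fun j => sub k (A j)) j hj

theorem map_card (k : X → Code L Λ) (B : Set X) :
    Cardinal.mk (sub k B : Set (F k)) ≤ Cardinal.mk B * Cardinal.mk Λ := by
  rw [Cardinal.mul_def]
  refine Cardinal.mk_le_of_injective (f := fun p => (⟨p.1.1.1, p.2⟩, p.1.1.2)) ?_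
  intro p q e
  have e2 := congrArg Prod.snd e
  exact Subtype.ext (Subtype.ext (Prod.ext (congrArg Subtype.val (congrArg Prod.fst e)) e2))

theorem map_ls (K : AEC L) (hK : K.LS (Cardinal.mk Λ)) {χ : Cardinal.{u}}
    (hχ : Cardinal.mk Λ ≤ χ) (k : X → Code L Λ) (hM : K.Mem (F k)) (A : Set X)
    (hA : Cardinal.mk A ≤ χ) :
    ∃ B, A ⊆ B ∧ Cardinal.mk B ≤ χ ∧ K.Le (sub k B) ⊤ := by
  have hi : ℵ₀ ≤ χ := hK.1.trans hχ
  have st : ∀ B : {B : Set X // Cardinal.mk B ≤ χ}, ∃ S : L.Substructure (F k),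
      K.Le S ⊤ ∧ sub k B.1 ≤ S ∧ Cardinal.mk S ≤ χ := by
    intro B
    obtain ⟨S, h1, h2, h3⟩ := hK.2.2 (F k) hM (sub k B.1)
    refine ⟨S, h1, h2, h3.trans (Cardinal.add_le_of_le hi ((map_card k B.1).trans ?_) hχ)⟩
    exact Cardinal.mul_le_of_le hi B.2 hχ
  choose S h1 h2 h3 using st
  let nx : {B : Set X // Cardinal.mk B ≤ χ} → {B : Set X // Cardinal.mk B ≤ χ} := fun B =>
    ⟨(fun p : F k => p.1.1) '' (S B : Set (F k)), Cardinal.mk_image_le.trans (h3 B)⟩
  have h4 : ∀ B, S B ≤ sub k (nx B).1 := fun B p hp => ⟨p, hp, rfl⟩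
  let B : ℕ → {B : Set X // Cardinal.mk B ≤ χ} := fun n => nx^[n] ⟨A, hA⟩
  have h5 : ∀ n, B (n + 1) = nx (B n) := fun n => Function.iterate_succ_apply' _ _ _
  have h6 : Monotone fun n => S (B n) := monotone_nat_of_le_succ fun n =>
    (h4 (B n)).trans (by rw [← h5]; exact h2 _)
  have h7 := (K.chain (fun n : ULift.{u} ℕ => S (B n.down)) fun i j hij =>
    K.coh (h6 hij) (h1 _) (h1 _)).2 ⊤ fun i => h1 _
  have h8 : ⨆ n : ULift.{u} ℕ, S (B n.down) = sub k (⋃ n : ULift.{u} ℕ, (B n.down).1) := by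
    refine le_antisymm (iSup_le fun n => (h4 _).trans (map_mono k ?_)) ?_
    · rw [← h5]
      exact subset_iUnion (fun n : ULift.{u} ℕ => (B n.down).1) ⟨n.down + 1⟩
    · rw [← map_sup]
      exact iSup_mono fun n => h2 _
  rw [h8] at h7
  refine ⟨_, subset_iUnion (fun n : ULift.{u} ℕ => (B n.down).1) ⟨0⟩, ?_, h7⟩
  refine (Cardinal.mk_iUnion_le _).trans (Cardinal.mul_le_of_le hi ?_ (ciSup_le fun n => (B _).2))
  rw [Cardinal.mk_uLift, Cardinal.mk_nat, Cardinal.lift_aleph0]
  exact hi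

theorem mem_iso (K : AEC L) {M N : Type u} [L.Structure M] [L.Structure N] (e : L.Equiv M N)
    (h : K.Mem M) : K.Mem N := by
  have h1 := (K.iso e.toEmbedding ⊤ ⊤).1 h
  have h2 : (⊤ : L.Substructure M).map e.toEmbedding.toHom = ⊤ :=
    top_le_iff.1 fun y _ => FirstOrder.Language.Substructure.mem_map.2
      ⟨e.symm y, trivial, e.apply_symm_apply y⟩
  rw [h2] at h1
  exact h1

theorem iso_of_mu [IsEmpty (L.Relations 0)] {k : X → Col L Λ} {k' : X' → Col L Λ}
    (h : ∀ t, mu k t = mu k' t) :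
    Nonempty (L.Equiv (F fun x => (k x).1) (F fun x => (k' x).1)) := by
  obtain ⟨e, he⟩ := eqv_of_mu h
  have hk : k = k' ∘ e := funext fun x => (he x).symm
  subst hk
  let g := map_emb e e.injective fun x => (k' x).1
  have hg : Function.Bijective g := by
    refine ⟨g.injective, ?_⟩
    rintro ⟨⟨x', a⟩, hp⟩
    obtain ⟨x, rfl⟩ := e.surjective x'
    exact ⟨⟨(x, a), hp⟩, rfl⟩
  exact ⟨⟨Equiv.ofBijective g hg, fun f => isEmptyElim f, fun R v => g.map_rel R v⟩⟩

theorem exists_CA [IsEmpty (L.Relations 0)] (K : AEC L) (hK : K.LS (Cardinal.mk Λ))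
    {χ : Cardinal.{u}} (hχ : Cardinal.mk Λ ≤ χ) : ∃ C : CA (Col L Λ) χ,
      ∀ (X : Type u) (k : X → Col L Λ), C.St k univ univ ↔ K.Mem (F fun x => (k x).1) := by
  refine ⟨{ St := fun k A B => K.Le (sub (fun x => (k x).1) A) (sub (fun x => (k x).1) B)
            refl := fun h => (K.refl h).2
            map := fun f hf k A B => ?_
            trans := fun h h' => K.trans h h'
            coh := fun h h1 h2 => K.coh (map_mono _ h) h1 h2
            chain := fun {X ι k} _ _ _ A h => ?_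
            ls := fun {X k} h A hA => ?_ }, fun X k => ?_⟩
  · have h1 := K.iso (map_emb f hf fun x => (k x).1) (sub _ A) (sub _ B)
    rw [map_sub, map_sub] at h1
    exact h1
  · have h1 := K.chain (fun i => sub (fun x => (k x).1) (A i)) h
    rw [map_sup] at h1
    exact ⟨h1.1, fun B hB => h1.2 _ hB⟩
  · rw [map_top] at h ⊢
    exact map_ls K hK hχ _ h A hA
  · show K.Le _ _ ↔ _
    rw [map_top]
    exact Iff.rfl

end Vale.Agent.P307
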