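import Vale.Agent.P307.Stretch

/-! P307 Pure: categoricity transfer for coloured sets. -/

open Cardinal Set

universe u

noncomputable section

namespace Vale.Agent.P307

variable {T X X' : Type u} {χ κ κ' : Cardinal.{u}} {k : X → T} {k' : X' → T}

theorem mk_le_of_mu (hT : Cardinal.mk T ≤ χ) (hχ : ℵ₀ ≤ χ) {θ : Cardinal.{u}} (hθ : χ ≤ θ)
    (h : ∀ t, mu k t ≤ θ) : Cardinal.mk X ≤ θ :=
  (mk_le_mk_mul_of_mk_preimage_le k h).trans
    ((mul_le_mul_left (hT.trans hθ) θ).trans (mul_eq_self (hχ.trans hθ)).le)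

theorem exists_big (hT : Cardinal.mk T ≤ χ) (hχ : ℵ₀ ≤ χ) (h : χ < Cardinal.mk X) (k : X → T) :
    ∃ t, χ < mu k t := by
  by_contra h'
  exact h.not_ge (mk_le_of_mu hT hχ le_rfl fun t => not_lt.1 fun ht => h' ⟨t, ht⟩)

theorem mu_le (k : X → T) (t : T) : mu k t ≤ Cardinal.mk X := mk_subtype_le _

theorem exists_mu (m : T → Cardinal.{u}) : ∃ (Y : Type u) (l : Y → T), ∀ t, mu l t = m t :=
  ⟨Σ t, (m t).out, Sigma.fst, fun t =>
    (mk_congr (Equiv.sigmaSubtype (β := fun t => (m t).out) t)).trans (mk_out _)⟩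

/-- A member of the class with prescribed big multiplicities. -/
theorem CA.exists_mem (C : CA T χ) (hT : Cardinal.mk T ≤ χ) (hχ : ℵ₀ ≤ χ) (h0 : C.St k univ univ)
    {θ : Cardinal.{u}} (hθ : χ ≤ θ) (n : T → Cardinal.{u}) (h1 : ∀ t, χ ≤ n t) (h2 : ∀ t, n t ≤ θ)
    {t₀ : T} (h3 : χ < mu k t₀) (h4 : n t₀ = θ) : ∃ (Y : Type u) (l : Y → T), C.St l univ univ ∧
      Cardinal.mk Y = θ ∧ ∀ t, mu l t = if χ < mu k t then n t else mu k t := by
  obtain ⟨Y, l, hl⟩ := exists_mu fun t => if χ < mu k t then n t else mu k t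
  refine ⟨Y, l, C.stretch hT hχ h0 (fun t ht => ?_) fun t ht => ?_,
    le_antisymm (mk_le_of_mu (k := l) hT hχ hθ fun t => ?_) ?_, hl⟩
  · rw [hl, if_neg ht.not_gt]
  · rw [hl, if_pos ht]
    exact h1 t
  · rw [hl]
    split_ifs with ht
    · exact h2 t
    · exact (not_lt.1 ht).trans hθ
  · have := mu_le l t₀
    rwa [hl, if_pos h3, h4] at this

theorem CA.transfer (C : CA T χ) (hT : Cardinal.mk T ≤ χ) (hχ : ℵ₀ ≤ χ) (hκ : χ < κ) (hκ' : χ < κ')
    (h : C.Cat κ) : C.Cat κ' := by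
  classical
  obtain ⟨⟨X, k, h0, hX⟩, hc⟩ := h
  obtain ⟨t₀, ht₀⟩ := exists_big hT hχ (hκ.trans_eq hX.symm) k
  have h1 : ∀ t, t ≠ t₀ → mu k t ≤ χ := fun t ht => by
    obtain ⟨Y, l, hl, hY, hm⟩ := C.exists_mem hT hχ h0 hκ.le (fun s => if s = t₀ then κ else χ)
      (fun s => by split_ifs; exacts [hκ.le, le_rfl]) (fun s => by split_ifs; exacts [le_rfl, hκ.le])
      ht₀ (if_pos rfl)
    have := (hc X Y k l h0 hl hX hY t).trans (hm t)
    by_contra h'
    rw [if_pos (not_le.1 h'), if_neg ht] at this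
    exact h' this.le
  have h2 : ∀ (Y : Type u) (l : Y → T), C.St l univ univ → Cardinal.mk Y = κ' →
      ∀ t, mu l t = if t = t₀ then κ' else mu k t := fun Y l hl hY => by
    obtain ⟨t₁, ht₁⟩ := exists_big hT hχ (hκ'.trans_eq hY.symm) l
    obtain ⟨Z, p, hp, hZ, hm⟩ := C.exists_mem hT hχ hl hκ.le (fun _ => κ) (fun _ => hκ.le)
      (fun _ => le_rfl) ht₁ rfl
    have h3 : ∀ t, t ≠ t₀ → mu l t = mu k t := fun t ht => by
      have := (hc X Z k p h0 hp hX hZ t).trans (hm t)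
      split_ifs at this with h'
      · exact absurd (this ▸ h1 t ht) hκ.not_ge
      · exact this.symm
    intro t
    split_ifs with ht
    · subst ht
      refine le_antisymm ((mu_le l t).trans hY.le) ?_
      have h4 : κ' ≤ max χ (mu l t) := hY.ge.trans
        (mk_le_of_mu (k := l) hT hχ (le_max_left _ _) fun s => by
          by_cases hs : s = t
          · exact hs ▸ le_max_right _ _
          · exact ((h3 s hs).trans_le (h1 s hs)).trans (le_max_left _ _))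
      exact (le_max_iff.1 h4).resolve_left hκ'.not_ge
    · exact h3 t ht
  refine ⟨?_, fun Y Y' l l' hl hl' hY hY' t => (h2 Y l hl hY t).trans (h2 Y' l' hl' hY' t).symm⟩
  obtain ⟨Z, p, hp, hZ, -⟩ := C.exists_mem hT hχ h0 hκ'.le (fun _ => κ') (fun _ => hκ'.le)
    (fun _ => le_rfl) ht₀ rfl
  exact ⟨Z, p, hp, hZ⟩

end Vale.Agent.P307
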