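import Mathlib

/-! Statement definitions for P307 (eventual categoricity for abstract elementary classes). -/

open Cardinal

universe u

namespace Vale.Agent.P307

/-- An abstract elementary class without the Loewenheim-Skolem axiom. `Le S T` says that `S ≤_K T`,
for two substructures `S`, `T` of any ambient structure; by `iso` the ambient structure plays no
role and the class and its order are closed under isomorphism. -/
structure AEC (L : FirstOrder.Language.{u, u}) where
  Le : ∀ {N : Type u} [L.Structure N], L.Substructure N → L.Substructure N → Prop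
  sub : ∀ {N : Type u} [L.Structure N] {S T : L.Substructure N}, Le S T → S ≤ T
  refl : ∀ {N : Type u} [L.Structure N] {S T : L.Substructure N}, Le S T → Le S S ∧ Le T T
  trans : ∀ {N : Type u} [L.Structure N] {S T U : L.Substructure N}, Le S T → Le T U → Le S U
  iso : ∀ {N N' : Type u} [L.Structure N] [L.Structure N'] (f : L.Embedding N N')
    (S T : L.Substructure N), Le S T ↔ Le (S.map f.toHom) (T.map f.toHom)
  coh : ∀ {N : Type u} [L.Structure N] {S T U : L.Substructure N},
    S ≤ T → Le S U → Le T U → Le S T
  chain : ∀ {N ι : Type u} [L.Structure N] [LinearOrder ι] [WellFoundedLT ι] [Nonempty ι]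
    (S : ι → L.Substructure N), (∀ i j, i ≤ j → Le (S i) (S j)) →
      (∀ i, Le (S i) (⨆ j, S j)) ∧ ∀ T, (∀ i, Le (S i) T) → Le (⨆ j, S j) T

namespace AEC

variable {L : FirstOrder.Language.{u, u}} (K : AEC L)

/-- `N` is a model of `K`. -/
def Mem (N : Type u) [L.Structure N] : Prop := K.Le (⊤ : L.Substructure N) ⊤

/-- The Loewenheim-Skolem axiom holds with the cardinal `l`, that is `LS(K) ≤ l`. -/
def LS (l : Cardinal.{u}) : Prop :=
  ℵ₀ ≤ l ∧ L.card ≤ l ∧ ∀ (N : Type u) [L.Structure N], K.Mem N → ∀ A : Set N,
    ∃ S : L.Substructure N, K.Le S ⊤ ∧ A ⊆ S ∧ Cardinal.mk S ≤ Cardinal.mk A + l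

/-- `K` is categorical in `κ`. -/
def Cat (κ : Cardinal.{u}) : Prop :=
  (∃ (N : Type u) (_ : L.Structure N), K.Mem N ∧ Cardinal.mk N = κ) ∧
    ∀ (M N : Type u) [L.Structure M] [L.Structure N], K.Mem M → K.Mem N →
      Cardinal.mk M = κ → Cardinal.mk N = κ → Nonempty (L.Equiv M N)

end AEC

/-- `a` and `b` occur together in a tuple that satisfies a relation of the vocabulary. -/
def Adj (L : FirstOrder.Language.{u, u}) {N : Type u} [L.Structure N] (a b : N) : Prop :=
  ∃ (n : ℕ) (R : L.Relations n) (x : Fin n → N),
    FirstOrder.Language.Structure.RelMap R x ∧ a ∈ Set.range x ∧ b ∈ Set.range x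

/-- In every model of `K` every element is adjacent to at most `l` elements. -/
def AEC.Deg {L : FirstOrder.Language.{u, u}} (K : AEC L) (l : Cardinal.{u}) : Prop :=
  ∀ (N : Type u) [L.Structure N], K.Mem N → ∀ a : N, Cardinal.mk {b : N // Adj L a b} ≤ l

end Vale.Agent.P307
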