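import Vale.Agent.P307.Defs

/-! P307 Stretch: the multiplicities above `χ` can be changed freely inside the class. -/

open Cardinal Set

universe u

noncomputable section

namespace Vale.Agent.P307

variable {T X X' : Type u} {χ : Cardinal.{u}} {m : T → Cardinal.{u}} {k : X → T} {k' : X' → T}

/-- `A` contains all points of small colour and `χ` points of each big colour. -/
def Gd (χ : Cardinal.{u}) (m : T → Cardinal.{u}) (k : X → T) (A : Set X) : Prop :=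
  (∀ x, m (k x) ≤ χ → x ∈ A) ∧ ∀ t, χ < m t → χ ≤ Cardinal.mk {x | x ∈ A ∧ k x = t}

theorem Gd.mono {A B : Set X} (h : Gd χ m k A) (hAB : A ⊆ B) : Gd χ m k B :=
  ⟨fun x hx => hAB (h.1 x hx), fun t ht =>
    (h.2 t ht).trans (mk_le_mk_of_subset fun _ hx => ⟨hAB hx.1, hx.2⟩)⟩

theorem Gd.small (hT : Cardinal.mk T ≤ χ) (hχ : ℵ₀ ≤ χ) (hf : ∀ t, m t ≤ χ → mu k t = m t)
    {A : Set X} (h : Gd χ m k A) : ∃ D, D ⊆ A ∧ Gd χ m k D ∧ Cardinal.mk D ≤ χ := by
  have h1 : ∀ t, ∃ p : Set X, p ⊆ {x | x ∈ A ∧ k x = t} ∧ Cardinal.mk p ≤ χ ∧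
      (m t ≤ χ → ∀ x, k x = t → x ∈ p) ∧ (χ < m t → χ ≤ Cardinal.mk p) := by
    intro t
    rcases le_or_gt (m t) χ with ht | ht
    · refine ⟨{x | k x = t}, fun x hx => ⟨h.1 x (by rw [show k x = t from hx]; exact ht), hx⟩,
        (hf t ht).trans_le ht, fun _ x hx => hx, fun h' => absurd ht h'.not_ge⟩
    · obtain ⟨p, hp, hp'⟩ := le_mk_iff_exists_subset.1 (h.2 t ht)
      exact ⟨p, hp, hp'.le, fun h' => absurd h' ht.not_ge, fun _ => hp'.ge⟩
  choose p h1 h2 h3 h4 using h1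
  refine ⟨⋃ t, p t, iUnion_subset fun t x hx => (h1 t hx).1,
    ⟨fun x hx => mem_iUnion.2 ⟨k x, h3 _ hx x rfl⟩, fun t ht => (h4 t ht).trans
      (mk_le_mk_of_subset fun x hx => ⟨mem_iUnion.2 ⟨t, hx⟩, (h1 t hx).2⟩)⟩, ?_⟩
  refine mk_iUnion_le_sum_mk.trans ((sum_le_sum _ (fun _ => χ) h2).trans ?_)
  rw [sum_const']
  exact (mul_le_mul_left hT χ).trans (mul_eq_self hχ).le

theorem mu_val (k : X → T) (A : Set X) (t : T) :
    mu (k ∘ Subtype.val : A → T) t = Cardinal.mk {x | x ∈ A ∧ k x = t} :=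
  mk_congr (Equiv.subtypeSubtypeEquivSubtypeInter (fun x => x ∈ A) fun x => k x = t)

theorem Gd.mu_in (hf : ∀ t, m t ≤ χ → mu k t = m t) {A : Set X} (h : Gd χ m k A)
    (hA : Cardinal.mk A ≤ χ) (t : T) : mu (k ∘ Subtype.val : A → T) t = min (m t) χ := by
  rw [mu_val]
  rcases le_or_gt (m t) χ with ht | ht
  · have : {x | x ∈ A ∧ k x = t} = {x | k x = t} :=
      Set.ext fun x => ⟨fun hx => hx.2, fun hx => ⟨h.1 x (by rw [show k x = t from hx]; exact ht), hx⟩⟩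
    rw [min_eq_left ht, this]
    exact hf t ht
  · rw [min_eq_right ht.le]
    exact le_antisymm ((mk_le_mk_of_subset fun x hx => hx.1).trans hA) (h.2 t ht)

theorem Gd.mu_out (hχ : ℵ₀ ≤ χ) {A : Set X} (h : Gd χ (mu k) k A) (hA : Cardinal.mk A ≤ χ) (t : T) :
    mu (k ∘ Subtype.val : ↥(Aᶜ) → T) t = if mu k t ≤ χ then 0 else mu k t := by
  rw [mu_val]
  split_ifs with ht
  · have : {x | x ∈ Aᶜ ∧ k x = t} = ∅ :=
      eq_empty_of_forall_notMem fun x hx => hx.1 (h.1 x (by rw [hx.2]; exact ht))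
    rw [this]
    exact mk_eq_zero _
  · have ht := not_le.1 ht
    have h1 : {x | k x = t} = {x | x ∈ A ∧ k x = t} ∪ {x | x ∈ Aᶜ ∧ k x = t} := by
      ext x
      simp only [mem_ofPred_eq, mem_union, mem_compl_iff]
      tauto
    have h2 : Cardinal.mk {x | x ∈ A ∧ k x = t} + Cardinal.mk {x | x ∈ Aᶜ ∧ k x = t} = mu k t := by
      rw [← mk_union_of_disjoint (disjoint_left.2 fun x hx hx' => hx'.1 hx.1), ← h1]
      rfl
    exact eq_of_add_eq_of_aleph0_le h2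
      (((mk_le_mk_of_subset fun x hx => hx.1).trans hA).trans_lt ht) (hχ.trans ht.le)

theorem CA.conj (C : CA T χ) (hχ : ℵ₀ ≤ χ) {A B : Set X} (hA : Gd χ (mu k) k A)
    (hB : Gd χ (mu k) k B) (hA' : Cardinal.mk A ≤ χ) (hB' : Cardinal.mk B ≤ χ)
    (h : C.St k A univ) : C.St k B univ := by
  classical
  obtain ⟨e1, he1⟩ := eqv_of_mu fun t =>
    (hA.mu_in (fun _ _ => rfl) hA' t).trans (hB.mu_in (fun _ _ => rfl) hB' t).symm
  obtain ⟨e2, he2⟩ := eqv_of_mu fun t => (hA.mu_out hχ hA' t).trans (hB.mu_out hχ hB' t).symm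
  let e : X ≃ X := Equiv.subtypeCongr (p := fun x => x ∈ A) (q := fun x => x ∈ B) e1 e2
  have h1 : ∀ x (hx : x ∈ A), e x = e1 ⟨x, hx⟩ := fun x hx => by
    simp only [e, Equiv.subtypeCongr, Equiv.trans_apply]
    rw [Equiv.sumCompl_symm_apply_of_pos (p := fun x => x ∈ A) hx]
    rfl
  have h2 : ∀ x (hx : x ∉ A), e x = e2 ⟨x, hx⟩ := fun x hx => by
    simp only [e, Equiv.subtypeCongr, Equiv.trans_apply]
    rw [Equiv.sumCompl_symm_apply_of_neg (p := fun x => x ∈ A) hx]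
    rfl
  have h3 : k ∘ e = k := funext fun x => by
    by_cases hx : x ∈ A
    · rw [Function.comp_apply, h1 x hx]
      exact he1 _
    · rw [Function.comp_apply, h2 x hx]
      exact he2 _
  have h4 : e '' A = B := by
    refine Subset.antisymm ?_ fun y hy => ⟨e1.symm ⟨y, hy⟩, (e1.symm ⟨y, hy⟩).2, ?_⟩
    · rintro _ ⟨x, hx, rfl⟩
      rw [h1 x hx]
      exact (e1 _).2
    · rw [h1 _ (e1.symm ⟨y, hy⟩).2, Subtype.coe_eta, Equiv.apply_symm_apply]
  have h5 := (C.map e e.injective k A univ).1 (h3.symm ▸ h)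
  rwa [h4, image_univ_of_surjective e.surjective] at h5

theorem gd_univ (h : ∀ t, χ < m t → χ ≤ mu k t) : Gd χ m k univ :=
  ⟨fun _ _ => mem_univ _, fun t ht => (h t ht).trans (mk_le_mk_of_subset
    (s := {x | k x = t}) fun _ hx => ⟨mem_univ _, hx⟩)⟩

theorem CA.base (C : CA T χ) (hT : Cardinal.mk T ≤ χ) (hχ : ℵ₀ ≤ χ) (h0 : C.St k univ univ)
    (hf : ∀ t, mu k t ≤ χ → mu k' t = mu k t) {A A' : Set X'} (hA : Gd χ (mu k) k' A)
    (hAA : A ⊆ A') (hA' : Cardinal.mk A' ≤ χ) : C.St k' A A' := by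
  obtain ⟨D, -, hD, hD'⟩ := (gd_univ (k := k) (m := mu k) fun t ht => ht.le).small hT hχ
    fun _ _ => rfl
  obtain ⟨A₀, h1, h2, h3⟩ := C.ls h0 D hD'
  have h4 := hD.mono h1
  obtain ⟨e, he⟩ := eqv_of_mu fun t =>
    ((hA.mono hAA).mu_in hf hA' t).trans (h4.mu_in (fun _ _ => rfl) h2 t).symm
  let f : A' → X := fun a => e a
  have hi : Function.Injective f := Subtype.val_injective.comp e.injective
  have hk : k ∘ f = k' ∘ Subtype.val := funext he
  have hr : f '' univ = A₀ := by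
    refine Subset.antisymm ?_ fun y hy => ⟨e.symm ⟨y, hy⟩, mem_univ _, ?_⟩
    · rintro _ ⟨x, -, rfl⟩
      exact (e x).2
    · simp only [f, Equiv.apply_symm_apply]
  have hs : f '' (Subtype.val ⁻¹' A) ⊆ A₀ := hr ▸ image_mono (subset_univ _)
  have hB : Gd χ (mu k) k (f '' (Subtype.val ⁻¹' A)) := by
    refine ⟨fun x hx => ?_, fun t ht => (hA.2 t ht).trans ?_⟩
    · obtain ⟨a, -, rfl⟩ : x ∈ f '' univ := hr ▸ h4.1 x hx
      refine ⟨a, hA.1 _ ?_, rfl⟩
      rw [← show k (f a) = k' a from he a]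
      exact hx
    · refine mk_le_of_injective (f := fun x => ⟨f ⟨x.1, hAA x.2.1⟩, ⟨_, x.2.1, rfl⟩,
        (he _).trans x.2.2⟩) fun x y hxy => ?_
      have h6 : f ⟨x.1, hAA x.2.1⟩ = f ⟨y.1, hAA y.2.1⟩ := Subtype.mk.inj hxy
      exact Subtype.ext (Subtype.mk.inj (hi h6))
  have h5 := C.coh hs (C.conj hχ h4 hB h2 ((mk_le_mk_of_subset hs).trans h2) h3) h3
  rw [← hr, ← C.map f hi, hk, C.map _ Subtype.val_injective, image_univ, Subtype.range_coe,
    Subtype.image_preimage_coe, inter_eq_right.2 hAA] at h5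
  exact h5

theorem CA.all (C : CA T χ) (hT : Cardinal.mk T ≤ χ) (hχ : ℵ₀ ≤ χ) (h0 : C.St k univ univ)
    (hf : ∀ t, mu k t ≤ χ → mu k' t = mu k t) (θ : Cardinal.{u}) : ∀ A A' : Set X',
      Gd χ (mu k) k' A → A ⊆ A' → Cardinal.mk A' = θ → C.St k' A A' := by
  induction θ using WellFoundedLT.induction with
  | ind θ ih =>
  intro A A' hA hAA hθ
  rcases le_or_gt θ χ with h | h
  · exact C.base hT hχ h0 hf hA hAA (hθ.trans_le h)
  have hθ0 : ℵ₀ ≤ θ := hχ.trans h.le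
  obtain ⟨e⟩ : Nonempty (θ.ord.ToType ≃ A') := Cardinal.eq.1 ((mk_ord_toType θ).trans hθ.symm)
  have : Nonempty θ.ord.ToType := by
    rw [← mk_ne_zero_iff, mk_ord_toType]
    exact (aleph0_pos.trans_le hθ0).ne'
  obtain ⟨D, hD, hD1, hD2⟩ := hA.small hT hχ hf
  let B : θ.ord.ToType → Set X' := fun i => D ∪ (fun j => (e j : X')) '' Iic i
  have hB : ∀ i, Cardinal.mk (B i) < θ := fun i => by
    refine (mk_union_le _ _).trans_lt (add_lt_of_lt hθ0 (hD2.trans_lt h) (mk_image_le.trans_lt ?_))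
    have := mk_Iic_lt i (by simp) (by rwa [mk_ord_toType])
    rwa [mk_ord_toType] at this
  have h1 : ∀ i (P Q : Set X'), D ⊆ P → P ⊆ Q → Q ⊆ B i → C.St k' P Q := fun i P Q hP hPQ hQ =>
    ih _ ((mk_le_mk_of_subset hQ).trans_lt (hB i)) P Q (hD1.mono hP) hPQ rfl
  have hm : ∀ i j, i ≤ j → B i ⊆ B j := fun i j hij =>
    union_subset_union_right _ (image_mono (Iic_subset_Iic.2 hij))
  have hU : ⋃ i, B i = A' := by
    refine Subset.antisymm (iUnion_subset fun i => union_subset (hD.trans hAA) ?_) fun x hx =>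
      mem_iUnion.2 ⟨e.symm ⟨x, hx⟩, Or.inr ⟨_, self_mem_Iic, ?_⟩⟩
    · rintro _ ⟨j, -, rfl⟩
      exact (e j).2
    · simp only [Equiv.apply_symm_apply]
  have h2 := (C.chain (k := k') B fun i j hij =>
    h1 j _ _ subset_union_left (hm i j hij) subset_rfl).1
  rw [hU] at h2
  have h3 := (C.chain (k := k') (fun i => A ∩ B i) fun i j hij =>
    h1 j _ _ (subset_inter hD subset_union_left) (inter_subset_inter_right _ (hm i j hij))
      inter_subset_right).2 A' fun i =>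
        C.trans (h1 i _ _ (subset_inter hD subset_union_left) inter_subset_right subset_rfl) (h2 i)
  rwa [← inter_iUnion, hU, inter_eq_left.2 hAA] at h3

theorem CA.stretch (C : CA T χ) (hT : Cardinal.mk T ≤ χ) (hχ : ℵ₀ ≤ χ) (h0 : C.St k univ univ)
    (hf : ∀ t, mu k t ≤ χ → mu k' t = mu k t) (hb : ∀ t, χ < mu k t → χ ≤ mu k' t) :
    C.St k' univ univ :=
  C.all hT hχ h0 hf _ univ univ (gd_univ hb) subset_rfl rfl

end Vale.Agent.P307
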